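import Vale.Agent.P216N.BDefs

/-!
# Approximate contractions produce a scale where the space is almost a cone
-/

open Set Filter Topology

noncomputable section

namespace Vale.Agent.P216UL

open Vale.Agent.P216R Vale.Agent.P216N

theorem mid_scale {A B M x y z t e s D : ℝ} (hD : 0 ≤ D) (h : MidIneq A B M x y z t e s) :
    MidIneq (D * A) (D * B) (D * M) (D * x) (D * y) (D * z) t (D ^ 2 * e) (D * s) := by
  have k : ∀ u v : ℝ, v = D ^ 2 * u → √v = D * √u := fun u v a => by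
    rw [a, Real.sqrt_mul (sq_nonneg D), Real.sqrt_sq hD]
  constructor
  · refine (mul_le_mul_of_nonneg_left h.1 hD).trans_eq ?_
    rw [mul_add, mul_add, ← k _ _ rfl, ← k _ _ rfl]
    congr 3 <;> ring
  · refine (mul_left_comm _ _ _).trans_le ((mul_le_mul_of_nonneg_left h.2 hD).trans_eq ?_)
    rw [mul_add, mul_add, ← k _ _ rfl, ← k _ _ rfl]
    congr 3 <;> ring

theorem mid_ev {ι : Type} {l : Filter ι} {A B M x y z : ι → ℝ} {A' B' M' x' y' z' t e s : ℝ}
    (hs : 0 < s) (hA : Tendsto A l (𝓝 A')) (hB : Tendsto B l (𝓝 B')) (hM : Tendsto M l (𝓝 M'))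
    (hx : Tendsto x l (𝓝 x')) (hy : Tendsto y l (𝓝 y')) (hz : Tendsto z l (𝓝 z'))
    (h : MidIneq A' B' M' x' y' z' t e 0) :
    ∀ᶠ k in l, MidIneq (A k) (B k) (M k) (x k) (y k) (z k) t e s := by
  have k : ∀ (c d : ℝ) {u v : ι → ℝ} {u' v' : ℝ}, Tendsto u l (𝓝 u') → Tendsto v l (𝓝 v') →
      Tendsto (fun k => √(c * u k ^ 2 + d * M k ^ 2 - t * (u k ^ 2 + M k ^ 2 - v k ^ 2) + e)) l
        (𝓝 √(c * u' ^ 2 + d * M' ^ 2 - t * (u' ^ 2 + M' ^ 2 - v' ^ 2) + e)) :=
    fun c d u v u' v' hu hv => (((((hu.pow 2).const_mul c).add ((hM.pow 2).const_mul d)).sub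
      ((((hu.pow 2).add (hM.pow 2)).sub (hv.pow 2)).const_mul t)).add_const e).sqrt
  have h1 := hz.eventually_lt (((k 1 (t ^ 2) hA hx).add (k 1 (t ^ 2) hB hy)).add_const s)
    (by simp only [one_mul]; linarith [h.1])
  have h2 := (hz.const_mul t).eventually_lt
    (((k (t ^ 2) 1 hA hx).add (k (t ^ 2) 1 hB hy)).add_const s)
    (by simp only [one_mul]; linarith [h.2])
  simp only [one_mul] at h1 h2
  filter_upwards [h1, h2] with k a b using ⟨a.le, b.le⟩

theorem pack {ε : ℝ} (hε : 0 < ε) : ∃ N : ℕ, ∀ l > (0 : ℝ), ∀ (n : ℕ) (x : Fin n → E3),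
    (∀ i, ‖x i‖ ≤ l) → (∀ i j, i ≠ j → ε * l < ‖x i - x j‖) → n ≤ N := by
  obtain ⟨t, ht, hc⟩ := Metric.totallyBounded_iff.1
    (isCompact_closedBall (0 : E3) 1).totallyBounded (ε / 2) (by positivity)
  refine ⟨ht.toFinset.card, fun l hl n x h1 h2 => ?_⟩
  have : ∀ i, ∃ y ∈ t, l⁻¹ • x i ∈ Metric.ball y (ε / 2) := fun i => by
    simpa using hc (show l⁻¹ • x i ∈ Metric.closedBall (0 : E3) 1 by
      rw [mem_closedBall_zero_iff, norm_smul, norm_inv, Real.norm_of_nonneg hl.le,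
        inv_mul_le_iff₀ hl, mul_one]
      exact h1 i)
  choose y hy hy' using this
  rw [← Fintype.card_fin n, ← Finset.card_univ]
  refine Finset.card_le_card_of_injOn y (fun i _ => by simpa using hy i) fun i _ j _ e => ?_
  by_contra k
  have h3 := dist_triangle_right (l⁻¹ • x i) (l⁻¹ • x j) (y j)
  have h4 := Metric.mem_ball.1 (e ▸ hy' i)
  have h5 := Metric.mem_ball.1 (hy' j)
  rw [dist_eq_norm, ← smul_sub, norm_smul, norm_inv, Real.norm_of_nonneg hl.le,
    inv_mul_le_iff₀ hl] at h3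
  nlinarith [h2 i j k]

theorem ex_lim {F : Type} [NormedAddCommGroup F] [ProperSpace F] (V : Ultrafilter ℕ) {f : ℕ → F}
    {C : ℝ} (h : ∀ k, ‖f k‖ ≤ C) : ∃ L, Tendsto f V (𝓝 L) :=
  let ⟨L, _, a⟩ := (isCompact_closedBall (0 : F) C).ultrafilter_le_nhds (V.map f)
    (le_principal_iff.2 (mem_map.2 (Eventually.of_forall fun k => mem_closedBall_zero_iff.2 (h k))))
  ⟨L, a⟩

/-- sequences of points -/
structure Sq {X : ℕ → Type} (P : ∀ k, Set (X k)) where
  v : ∀ k, X k
  m : ∀ k, v k ∈ P k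

theorem ulim : ULIM := by
  intro ε hε N l₁ hl₁
  by_contra hc
  push Not at hc
  have hp : ∀ k : ℕ, (0 : ℝ) < 1 / (k + 1) := fun k => by positivity
  choose X I P p H lg D hD h hb using fun k : ℕ => hc _ (hp k) _ (hp k)
  let V := hyperfilter ℕ
  have hV : Tendsto (fun k : ℕ => (1 : ℝ) / (k + 1)) V (𝓝 0) :=
    tendsto_one_div_add_atTop_nhds_zero_nat.mono_left (Nat.hyperfilter_le_atTop)
  have e1 : ∀ a b : Sq P, ∃ L, Tendsto (fun k => dist (a.v k) (b.v k) / D k) V (𝓝 L) :=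
    fun a b => ex_lim V (C := 2) fun k => by
      rw [Real.norm_of_nonneg (div_nonneg dist_nonneg (hD k).le), div_le_iff₀ (hD k)]
      linarith [dist_triangle_left (a.v k) (b.v k) (p k), (h k).bd _ (a.m k), (h k).bd _ (b.m k)]
  have e2 : ∀ a : Sq P, ∃ L, Tendsto (fun k => (D k)⁻¹ • lg k (a.v k)) V (𝓝 L) :=
    fun a => ex_lim V (C := 1) fun k => by
      rw [norm_smul, norm_inv, Real.norm_of_nonneg (hD k).le, inv_mul_le_iff₀ (hD k), mul_one,
        (h k).nrm _ (a.m k)]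
      exact (h k).bd _ (a.m k)
  choose d T using e1
  choose L TL using e2
  let _ : PseudoMetricSpace (Sq P) :=
    { dist := d
      dist_self := fun a => tendsto_nhds_unique (T a a) (by simp)
      dist_comm := fun a b => tendsto_nhds_unique (T a b) (by simpa only [dist_comm] using T b a)
      dist_triangle := fun a b c => le_of_tendsto_of_tendsto' (T a c) ((T a b).add (T b c))
        fun k => by
          rw [← add_div]; exact div_le_div_of_nonneg_right (dist_triangle _ _ _) (hD k).le }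
  replace T : ∀ a b : Sq P, Tendsto (fun k => dist (a.v k) (b.v k) / D k) V (𝓝 (dist a b)) := T
  let o : Sq P := ⟨p, fun k => (h k).mem⟩
  classical
  let G : ℝ → Sq P → Sq P := fun t a =>
    if ht : t ∈ Icc (0 : ℝ) 1 then ⟨fun k => H k t (a.v k), fun k => (h k).map t ht (a.m k)⟩ else a
  have hG : ∀ t ∈ Icc (0 : ℝ) 1, ∀ a k, (G t a).v k = H k t (a.v k) := fun t ht a k => by
    simp only [G, dif_pos ht]
  have Ti : ∀ a b : Sq P, Tendsto (fun k => ip (p k) (a.v k) (b.v k) / D k ^ 2) V (𝓝 (ip o a b)) :=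
    fun a b => (((((T o a).pow 2).add ((T o b).pow 2)).sub ((T a b).pow 2)).div_const 2).congr
      fun k => by simp only [ip, o]; ring
  have n1 : ∀ a, ‖L a‖ = dist o a := fun a => tendsto_nhds_unique (TL a).norm ((T o a).congr
    fun k => by
      rw [norm_smul, norm_inv, Real.norm_of_nonneg (hD k).le, (h k).nrm _ (a.m k), div_eq_inv_mul])
  have n2 : ∀ a b, dist a b ≤ ‖L a - L b‖ := fun a b => by
    refine (abs_le_of_sq_le_sq' ?_ (norm_nonneg _)).2
    refine le_of_le_of_eq (le_of_tendsto_of_tendsto' ((T a b).pow 2)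
      ((((TL a).sub (TL b)).norm.pow 2).add hV) fun k => ?_) (add_zero _)
    have := hD k
    rw [← smul_sub, norm_smul, norm_inv, Real.norm_of_nonneg this.le, div_pow,
      div_le_iff₀ (by positivity)]
    refine ((h k).hin _ (a.m k) _ (b.m k)).trans_eq ?_
    field_simp
  have hC : Contr o G := by
    refine ⟨fun t ht a => tendsto_nhds_unique (T o (G t a)) (((T o a).const_mul t).congr
      fun k => ?_), fun t ht q b => ?_, fun e he => (pack he).imp fun n k l hl j x h1 h2 =>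
        k l hl j (fun i => L (x i)) (fun i => (n1 _).trans_le (h1 i))
          fun i j a => (h2 i j a).trans_le (n2 _ _)⟩
    · rw [hG t ht, ← mul_div_assoc, ← (h k).rad t ht _ (a.m k)]
    · refine le_of_le_of_eq (le_of_tendsto_of_tendsto' (Ti q (G t b))
        (((Ti q b).const_mul t).add hV) fun k => ?_) (add_zero _)
      have := hD k
      rw [hG t ht, div_le_iff₀ (by positivity)]
      refine ((h k).cc t ht _ (q.m k) _ (b.m k)).trans_eq ?_
      field_simp
  obtain ⟨l₀, hl₀, hm⟩ := hC.mid (ε := ε / 4) (by positivity)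
  set l := min (l₀ / 2) l₁ with hl
  have l0 : 0 < l := by positivity
  have : ∀ k : ℕ, ∃ a ∈ P k, ∃ b ∈ P k, ∃ m ∈ P k, 1 / ((k : ℝ) + 1) ≤ l →
      dist (p k) a ≤ 2 * (l * D k) ∧ dist (p k) b ≤ 2 * (l * D k) ∧ dist (p k) m ≤ 2 * (l * D k) ∧
      ∃ n ≤ N, ¬ MidIneq (dist (p k) a) (dist (p k) b) (dist (p k) m) (dist a m) (dist b m)
        (dist a b) (1 - 1 / ((n : ℝ) + 2)) (ε * (l * D k) ^ 2) (ε * (l * D k)) := fun k => by
    by_cases a : 1 / ((k : ℝ) + 1) ≤ l
    · obtain ⟨n, hn, a, ha, b, hb, m, hm, h1, h2, h3, h4⟩ := hb k (l * D k)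
        ⟨mul_le_mul_of_nonneg_right a (hD k).le,
          mul_le_mul_of_nonneg_right (min_le_right _ _) (hD k).le⟩
      exact ⟨a, ha, b, hb, m, hm, fun _ => ⟨h1, h2, h3, n, hn, h4⟩⟩
    · exact ⟨_, (h k).mem, _, (h k).mem, _, (h k).mem, fun b => (a b).elim⟩
  choose a ha b hb' m hm' hk using this
  let a' : Sq P := ⟨a, ha⟩
  let b' : Sq P := ⟨b, hb'⟩
  let m' : Sq P := ⟨m, hm'⟩
  have ev := (hV.eventually (ge_mem_nhds l0)).mono hk
  have le : ∀ c : Sq P, (∀ᶠ k in V, dist (p k) (c.v k) ≤ 2 * (l * D k)) → dist o c ≤ 2 * l :=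
    fun c e => le_of_tendsto (T o c) (e.mono fun k e => by
      rw [div_le_iff₀ (hD k), mul_assoc]; exact e)
  have f0 := fun n : ℕ =>
    mid_ev (s := ε * l) (by positivity) (T o a') (T o b') (T o m') (T a' m') (T b' m') (T a' b')
      (hm (2 * l) ⟨by positivity, by linarith [min_le_left (l₀ / 2) l₁]⟩ (1 - 1 / ((n : ℝ) + 2))
        ⟨by rw [sub_pos, div_lt_one (by positivity)]; linarith [n.cast_nonneg (α := ℝ)],
          sub_le_self _ (by positivity)⟩ a' b' m' (le a' (ev.mono fun _ e => e.1))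
        (le b' (ev.mono fun _ e => e.2.1)) (le m' (ev.mono fun _ e => e.2.2.1)))
  obtain ⟨k, ⟨-, -, -, n, hn, h1⟩, h2⟩ :=
    (ev.and ((eventually_all_finite (finite_Iic N)).2 fun n _ => f0 n)).exists
  have h3 := mid_scale (hD k).le (h2 n hn)
  simp only [mul_div_cancel₀ _ (hD k).ne'] at h3
  exact h1 (by convert h3 using 1 <;> ring)

end Vale.Agent.P216UL
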